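import Vale.Agent.H22.BBL.OneDim2
import Vale.Agent.H61.BBLInd

/-!
The Borell-Brascamp-Lieb inequality in transport form on Euclidean space (P074, row B)

Bridge between the one-dimensional inequality `Vale.Agent.H22.bblProp_real` and the Fubini
induction of `Vale.Agent.H61.BBLInd`.
-/

open MeasureTheory

namespace Vale.Agent.H61.BBL

theorem Omega_eq (n : ℕ) (p q : ℝ) : Omega n p q = Vale.Agent.H22.bblOmega n p q := rfl

/-- The one-dimensional inequality, in the shape used by the induction. -/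
theorem bblProp_one : BBLProp ℝ 1 := by
  intro f0 f1 a b h hf0m hf1m hf0 hf1 hf0i hf1i hint ham hbm hab hbb hhm hyp
  obtain ⟨Ma, hMa⟩ := hab
  obtain ⟨Mb, hMb⟩ := hbb
  exact Vale.Agent.H22.bblProp_real f0 f1 a b h (max Ma Mb) hf0m hf1m ham hbm hhm hf0 hf1
    hf0i hf1i (fun x => (hMa x).trans (le_max_left _ _))
    (fun x => (hMb x).trans (le_max_right _ _)) hint hyp

end Vale.Agent.H61.BBL

namespace Vale.Agent.H61

open Vale.Agent.H22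

/-- The inequality on `EuclideanSpace ℝ (Fin n)` in the shape of `Vale.Agent.H22.BBLProp`. -/
theorem bblProp_euclidean {n : ℕ} (hn : 1 ≤ n) :
    BBLProp (volume : Measure (EuclideanSpace ℝ (Fin n))) n := by
  intro f₀ f₁ a b h C hf₀m hf₁m ham hbm hhm hf₀ hf₁ hi₀ hi₁ haC hbC hmass hyp
  exact BBL.BBLProp.euclidean BBL.bblProp_one n hn f₀ f₁ a b h hf₀m hf₁m hf₀ hf₁ hi₀ hi₁ hmass
    ham hbm ⟨C, haC⟩ ⟨C, hbC⟩ hhm hyp

/-- The inequality on `Fin n → ℝ` in the shape of `Vale.Agent.H22.BBLProp`. -/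
theorem bblProp_pi {n : ℕ} (hn : 1 ≤ n) :
    BBLProp (volume : Measure (Fin n → ℝ)) n := by
  intro f₀ f₁ a b h C hf₀m hf₁m ham hbm hhm hf₀ hf₁ hi₀ hi₁ haC hbC hmass hyp
  exact BBL.BBLProp.pi BBL.bblProp_one n hn f₀ f₁ a b h hf₀m hf₁m hf₀ hf₁ hi₀ hi₁ hmass
    ham hbm ⟨C, haC⟩ ⟨C, hbC⟩ hhm hyp

/-- **The Borell-Brascamp-Lieb inequality in transport form on `ℝ^n`**, real-valued form:
for nonnegative integrable `f₀, f₁` with equal integrals, bounded measurable `a, b` and a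
nonnegative integrable `h` with `a x + b x' ≤ h ((x + x')/2) * bblOmega n (f₀ x) (f₁ x')`
whenever `f₀ x > 0` and `f₁ x' > 0`, one has `∫ a f₀ + ∫ b f₁ ≤ ∫ h`. -/
theorem bbl_euclidean {n : ℕ} (hn : 1 ≤ n) (f₀ f₁ a b h : EuclideanSpace ℝ (Fin n) → ℝ) (C : ℝ)
    (hf₀m : Measurable f₀) (hf₁m : Measurable f₁) (ham : Measurable a) (hbm : Measurable b)
    (hhm : Measurable h) (hf₀ : ∀ x, 0 ≤ f₀ x) (hf₁ : ∀ x, 0 ≤ f₁ x)
    (hi₀ : Integrable f₀) (hi₁ : Integrable f₁) (hh : ∀ x, 0 ≤ h x) (hhi : Integrable h)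
    (haC : ∀ x, |a x| ≤ C) (hbC : ∀ x, |b x| ≤ C) (hmass : ∫ x, f₀ x = ∫ x, f₁ x)
    (hyp : ∀ x x', 0 < f₀ x → 0 < f₁ x' →
      a x + b x' ≤ h ((1 / 2 : ℝ) • (x + x')) * bblOmega n (f₀ x) (f₁ x')) :
    (∫ x, a x * f₀ x) + (∫ x, b x * f₁ x) ≤ ∫ x, h x :=
  (BBL.BBLProp.euclidean BBL.bblProp_one n hn).real hf₀m hf₁m hf₀ hf₁ hi₀ hi₁ hmass ham hbm
    ⟨C, haC⟩ ⟨C, hbC⟩ hhm hh hhi hyp

end Vale.Agent.H61
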