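import Vale.Agent.H80.ERem.Basic
import Vale.Agent.H10.Removal.Avg
import Vale.Agent.H10.Removal.Sort

/-!
Counting lemmas for the pattern `E = [[1, 0], [0, 0]]`

Hitting sets for the copies carried by a pair of rows, and the averages over all tuples of
sampled rows of the hit pairs, the missed zero pairs and the missed zero columns.
-/

namespace Vale.Agent.H80.ERem

open Finset

theorem exists_hitting {n : ℕ} (A : Fin n → Fin n → Bool) (k1 k2 : Fin n) :
    ∃ (X : Finset (Fin n)) (d : ℕ), X.card ≤ 2 * d ∧ d * d ≤ (pairCop A k1 k2).card ∧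
      ∀ c c', IsCop A k1 k2 c c' → c ∈ X ∨ c' ∈ X := by
  classical
  by_cases h12 : k1 < k2
  · have hP : (univ.filter fun c => A k1 c = true ∧ A k2 c = false) ⊆
        (univ.filter fun c => A k2 c = false) := by
      intro c hc
      rw [mem_filter] at hc ⊢
      exact ⟨mem_univ _, hc.2.2⟩
    obtain ⟨F, hFX, hup, d, hd1, hd2, hd3⟩ :=
      Vale.Agent.H10.Removal.sort_lemma (univ.filter fun c => A k2 c = false)
        (univ.filter fun c => A k1 c = true ∧ A k2 c = false) hP (fun c : Fin n => c)
        (fun _ _ _ _ h => h)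
    refine ⟨((univ.filter fun c => A k1 c = true ∧ A k2 c = false) \ F) ∪
      (F \ (univ.filter fun c => A k1 c = true ∧ A k2 c = false)), d, ?_, ?_, ?_⟩
    · refine le_trans (card_union_le _ _) ?_
      rw [hd1, hd2]; omega
    · refine le_trans hd3 (card_le_card ?_)
      intro p hp
      rw [mem_filter, mem_product, mem_filter, mem_sdiff, mem_filter, mem_filter] at hp
      obtain ⟨⟨⟨_, h1a, h1b⟩, ⟨_, h2z⟩, h2P⟩, hlt⟩ := hp
      rw [pairCop, mem_filter]
      refine ⟨mem_univ _, h12, hlt, h1a, ?_, h1b, h2z⟩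
      cases h : A k1 p.2 with
      | false => rfl
      | true => exact absurd ⟨mem_univ _, h, h2z⟩ h2P
    · rintro c c' ⟨_, hcc, h1, h2, h3, h4⟩
      by_contra hcon
      rw [not_or, mem_union, mem_union, not_or, not_or] at hcon
      obtain ⟨⟨hc1, _⟩, _, hc'2⟩ := hcon
      have hcP : c ∈ univ.filter fun c => A k1 c = true ∧ A k2 c = false :=
        mem_filter.mpr ⟨mem_univ _, h1, h3⟩
      have hc'P : c' ∉ univ.filter fun c => A k1 c = true ∧ A k2 c = false := by
        intro h
        rw [mem_filter] at h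
        rw [h.2.1] at h2
        exact Bool.false_ne_true h2.symm
      have hcF : c ∈ F := by
        by_contra h
        exact hc1 (mem_sdiff.mpr ⟨hcP, h⟩)
      have hc'F : c' ∉ F := fun h => hc'2 (mem_sdiff.mpr ⟨h, hc'P⟩)
      have hc'X : c' ∈ univ.filter fun c => A k2 c = false :=
        mem_filter.mpr ⟨mem_univ _, h4⟩
      exact hc'F (hup c hcF c' hc'X hcc)
  · refine ⟨∅, 0, by simp, by simp, ?_⟩
    rintro c c' ⟨h, _⟩
    exact absurd h h12

theorem pairCop_self {n : ℕ} (A : Fin n → Fin n → Bool) (k : Fin n) : pairCop A k k = ∅ := by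
  rw [pairCop, filter_eq_empty_iff]
  rintro p _ ⟨h, _⟩
  exact lt_irrefl _ h

/-- the hit pairs, summed over all tuples -/
theorem sum_hit_le {n : ℕ} (A : Fin n → Fin n → Bool) (q : ℕ) :
    (∑ ρ : Fin q → Fin n, ∑ i, (HitSet A (univ.image ρ) i).card) * n ≤
      q * (n ^ q * ∑ k1, ∑ k2, (pairCop A k1 k2).card) := by
  classical
  have h1 : ∀ ρ : Fin q → Fin n, ∑ i, (HitSet A (univ.image ρ) i).card ≤
      ∑ a : Fin q, ∑ i, (pairCop A i (ρ a)).card := by
    intro ρ
    rw [sum_comm]
    apply sum_le_sum
    intro i _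
    have hsub : HitSet A (univ.image ρ) i ⊆ univ.biUnion fun a => pairCop A i (ρ a) := by
      intro p hp
      rw [HitSet, mem_filter] at hp
      obtain ⟨_, k, hk, hcop⟩ := hp
      obtain ⟨a, _, rfl⟩ := mem_image.mp hk
      rw [mem_biUnion]
      exact ⟨a, mem_univ _, by rw [pairCop, mem_filter]; exact ⟨mem_univ _, hcop⟩⟩
    exact le_trans (card_le_card hsub) card_biUnion_le
  have h2 : ∑ ρ : Fin q → Fin n, ∑ i, (HitSet A (univ.image ρ) i).card ≤
      ∑ a : Fin q, ∑ ρ : Fin q → Fin n, ∑ i, (pairCop A i (ρ a)).card := by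
    calc ∑ ρ : Fin q → Fin n, ∑ i, (HitSet A (univ.image ρ) i).card
        ≤ ∑ ρ : Fin q → Fin n, ∑ a : Fin q, ∑ i, (pairCop A i (ρ a)).card :=
          sum_le_sum fun ρ _ => h1 ρ
      _ = _ := sum_comm
  refine le_trans (Nat.mul_le_mul_right n h2) ?_
  rw [sum_mul]
  have h3 : ∀ a : Fin q, (∑ ρ : Fin q → Fin n, ∑ i, (pairCop A i (ρ a)).card) * n =
      n ^ q * ∑ k1, ∑ k2, (pairCop A k1 k2).card := by
    intro a
    rw [Vale.Agent.H10.Removal.marg1 a (fun k => ∑ i, (pairCop A i k).card), sum_comm]
  rw [sum_congr rfl (fun a _ => h3 a)]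
  simp

/-- Generic avoidance count: objects `p` attached to rows `i` through `T`, each with a set
`Z i p` of rows containing `i` itself and strictly decreasing in `i` along the rows carrying
`p`. -/
theorem sum_avoid_le {n : ℕ} {P : Type*} [Fintype P] [DecidableEq P] (q : ℕ)
    (T : Fin n → Finset P) (Z : Fin n → P → Finset (Fin n))
    (hself : ∀ i p, p ∈ T i → i ∈ Z i p)
    (hmono : ∀ i i' p, i < i' → Z i' p ⊆ Z i p)
    (hnot : ∀ i i' p, i < i' → i ∉ Z i' p) :
    (q + 1) * (∑ ρ : Fin q → Fin n, ∑ i, ((T i).filter fun p => ∀ a, ρ a ∉ Z i p).card) ≤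
      Fintype.card P * n ^ (q + 1) := by
  classical
  have h1 : ∑ ρ : Fin q → Fin n, ∑ i, ((T i).filter fun p => ∀ a, ρ a ∉ Z i p).card =
      ∑ i, ∑ p ∈ T i, (n - (Z i p).card) ^ q := by
    rw [sum_comm]
    apply sum_congr rfl
    intro i _
    simp_rw [card_filter]
    rw [sum_comm]
    apply sum_congr rfl
    intro p _
    rw [← card_filter, Vale.Agent.H10.Removal.card_avoid]
  have h2 : ∑ i, ∑ p ∈ T i, (n - (Z i p).card) ^ q =
      ∑ p : P, ∑ i ∈ univ.filter (fun i => p ∈ T i), (n - (Z i p).card) ^ q := by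
    apply sum_comm'
    intro i p
    simp
  rw [h1, h2, mul_sum]
  have h3 : ∀ p : P,
      (q + 1) * ∑ i ∈ univ.filter (fun i => p ∈ T i), (n - (Z i p).card) ^ q ≤ n ^ (q + 1) := by
    intro p
    refine le_trans ?_ (Vale.Agent.H10.Removal.powsum_le q n)
    apply Nat.mul_le_mul_left
    have hmemZ : ∀ i ∈ univ.filter (fun i => p ∈ T i), i ∈ Z i p := by
      intro i hi
      rw [mem_filter] at hi
      exact hself i p hi.2
    have hlt : ∀ i ∈ univ.filter (fun i => p ∈ T i), ∀ i' ∈ univ.filter (fun i => p ∈ T i),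
        i < i' → (Z i' p).card < (Z i p).card := by
      intro i hi i' _ hii
      apply card_lt_card
      rw [ssubset_iff_of_subset (hmono i i' p hii)]
      exact ⟨i, hmemZ i hi, hnot i i' p hii⟩
    have hcardle : ∀ i, (Z i p).card ≤ n := by
      intro i
      have := card_le_univ (Z i p)
      simpa using this
    have hinj : Set.InjOn (fun i => n - (Z i p).card)
        (univ.filter (fun i => p ∈ T i) : Finset (Fin n)) := by
      intro i hi i' hi' heq
      simp only at heq
      rcases lt_trichotomy i i' with h | h | h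
      · have := hlt i hi i' hi' h
        have h1 := hcardle i
        have h2 := hcardle i'
        omega
      · exact h
      · have := hlt i' hi' i hi h
        have h1 := hcardle i
        have h2 := hcardle i'
        omega
    rw [← sum_image (f := fun j => j ^ q) hinj]
    apply sum_le_sum_of_subset
    intro j hj
    rw [mem_image] at hj
    obtain ⟨i, hi, rfl⟩ := hj
    rw [mem_range]
    have h1 : 0 < (Z i p).card := card_pos.mpr ⟨i, hmemZ i hi⟩
    have h2 : 0 < n := i.pos
    omega
  calc ∑ p : P,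
        (q + 1) * ∑ i ∈ univ.filter (fun i => p ∈ T i), (n - (Z i p).card) ^ q
      ≤ ∑ _p : P, n ^ (q + 1) := sum_le_sum fun p _ => h3 p
    _ = Fintype.card P * n ^ (q + 1) := by simp

/-- the missed zero pairs, summed over all tuples -/
theorem sum_missP_le {n : ℕ} (A : Fin n → Fin n → Bool) (q : ℕ) :
    (q + 1) * (∑ ρ : Fin q → Fin n, ∑ i, (MissP A (univ.image ρ) i).card) ≤
      n * n * n ^ (q + 1) := by
  classical
  set Z : Fin n → Fin n × Fin n → Finset (Fin n) := fun i p =>
    univ.filter fun k => i ≤ k ∧ A k p.1 = false ∧ A k p.2 = false with hZ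
  set T : Fin n → Finset (Fin n × Fin n) := fun i =>
    univ.filter fun p => p.1 < p.2 ∧ A i p.1 = false ∧ A i p.2 = false with hT
  have hMiss : ∀ (ρ : Fin q → Fin n) (i : Fin n), MissP A (univ.image ρ) i =
      (T i).filter fun p => ∀ a, ρ a ∉ Z i p := by
    intro ρ i
    ext p
    simp only [MissP, hT, hZ, mem_filter, mem_univ, true_and, mem_image, forall_exists_index,
      forall_apply_eq_imp_iff, not_and, and_assoc]
  have key := sum_avoid_le q T Z
    (by
      intro i p hp
      simp only [hT, mem_filter, mem_univ, true_and] at hp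
      simp only [hZ, mem_filter, mem_univ, true_and]
      exact ⟨le_refl _, hp.2.1, hp.2.2⟩)
    (by
      intro i i' p hii k hk
      simp only [hZ, mem_filter, mem_univ, true_and] at hk ⊢
      exact ⟨le_trans hii.le hk.1, hk.2⟩)
    (by
      intro i i' p hii
      simp only [hZ, mem_filter, mem_univ, true_and, not_and]
      intro h
      exact absurd h (not_le.mpr hii))
  simp_rw [hMiss]
  refine le_trans key ?_
  simp

/-- the missed zero columns, summed over all tuples -/
theorem sum_missZ_le {n : ℕ} (A : Fin n → Fin n → Bool) (q : ℕ) :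
    (q + 1) * (∑ ρ : Fin q → Fin n, ∑ i, (MissZ A (univ.image ρ) i).card) ≤
      n * n ^ (q + 1) := by
  classical
  set Z : Fin n → Fin n → Finset (Fin n) := fun i x =>
    univ.filter fun k => i ≤ k ∧ A k x = false with hZ
  set T : Fin n → Finset (Fin n) := fun i =>
    univ.filter fun x => A i x = false with hT
  have hMiss : ∀ (ρ : Fin q → Fin n) (i : Fin n), MissZ A (univ.image ρ) i =
      (T i).filter fun x => ∀ a, ρ a ∉ Z i x := by
    intro ρ i
    ext x
    simp only [MissZ, hT, hZ, mem_filter, mem_univ, true_and, mem_image, forall_exists_index,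
      forall_apply_eq_imp_iff, not_and, Bool.not_eq_false]
  have key := sum_avoid_le q T Z
    (by
      intro i x hx
      simp only [hT, mem_filter, mem_univ, true_and] at hx
      simp only [hZ, mem_filter, mem_univ, true_and]
      exact ⟨le_refl _, hx⟩)
    (by
      intro i i' x hii k hk
      simp only [hZ, mem_filter, mem_univ, true_and] at hk ⊢
      exact ⟨le_trans hii.le hk.1, hk.2⟩)
    (by
      intro i i' x hii
      simp only [hZ, mem_filter, mem_univ, true_and, not_and]
      intro h
      exact absurd h (not_le.mpr hii))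
  simp_rw [hMiss]
  refine le_trans key ?_
  simp

end Vale.Agent.H80.ERem
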